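import Vale.Agent.P252.Main

namespace Vale.Agent.Results.P252.AffineBernsteinFails

open Vale.Agent.P252

theorem result : ∀ n : ℕ, 10 ≤ n →
    ∃ u : (Fin n → ℝ) → ℝ, ContDiff ℝ ((⊤ : ℕ∞) : WithTop ℕ∞) u ∧
      (∀ x, (hess u x).PosDef) ∧
      (∀ x, ∑ i, ∑ j, ((hess u x).det • (hess u x)⁻¹) i j *
          hess (fun y => (hess u y).det ^ (-(((n : ℝ) + 1) / ((n : ℝ) + 2)))) x i j = 0) ∧
      ¬ ∃ (A : Matrix (Fin n) (Fin n) ℝ) (b : Fin n → ℝ) (c : ℝ),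
          ∀ x, u x = 1 / 2 * (∑ i, ∑ j, A i j * x i * x j) + (∑ i, b i * x i) + c :=
  exists_solution

end Vale.Agent.Results.P252.AffineBernsteinFails
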